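import Vale.Agent.P338.R3.H784.OpQ
import Vale.Agent.P338.R3.H898.Core

/-!
P338-D: the product with a complex constant; all operations of the cell machine.
-/

namespace Vale.Agent.P338.R3.H784

open Vale.Agent.P338.R2.H898 hiding val
open Prog
open Vale.Agent.P338.R2.H968
open Vale.Agent.P338.R2.H784
open Vale.Agent.P338.R2.H968.CallEnv (mem0)
open Vale.Agent.P338.R2.H778 (bits val length_bits)
open Vale.Agent.P338.R3.H968
open Vale.Agent.P338.R3.H898 (cZero cmRe cmIm cpRe cpIm Ex1 MD repD Mo wv Rest)
open Vale.Agent.P338.R3.H525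
open Vale.Agent.P338.D.CM (ioZ Ops Sem)
open Vale.Agent.Lib.PolyTime (Word)
open Function (update)

/-- The files of the operations. -/
abbrev GR (A : MTM) : Type := FT A ⊕ Bool

/-- The store of the operations. -/
abbrev sto' {A : MTM} (P : CPar) (D : DS) (r : Bool → Word) : Store (CallMem A) (GR A) (Ac A) :=
  ⟨mem0 A, ioZ bc (repD (A := A)) (P, D) r⟩

/-- Embedding of the files, the constant is the register `k`. -/
def phi {A : MTM} (k : Bool) : FT A → GR A
  | .inl .cst => .inr k
  | g => .inl g

theorem phi_inj {A : MTM} (k : Bool) : Function.Injective (phi (A := A) k) := by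
  intro g g' h
  rcases g with g | g <;> rcases g' with g' | g'
  · cases g <;> cases g' <;> simp_all [phi]
  · cases g <;> simp_all [phi]
  · cases g' <;> simp_all [phi]
  · simp_all [phi]

theorem phi_of_ne {A : MTM} (k : Bool) {f : CF} (h : f ≠ .cst) :
    phi (A := A) k (.inl f) = .inl (.inl f) := by
  cases f <;> first | rfl | exact absurd rfl h

theorem wz_wv {b : ℕ} {w : List Bool} (h : w.length = b) : wz b (wv w) = w := by
  rw [wv, wz_nat, ← h, Vale.Agent.P338.R2.H778.bits_val]

section lift

variable {A : MTM} [DecidableEq A.Tape] {P : CPar}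

/-- A program on the files without the registers. -/
def up0 (p : PC A) : Prog (CallMem A) (GR A) (Ac A) := p.map (Lens.idL _) Sum.inl

/-- A program whose constant is a register. -/
def upR (k : Bool) (p : PC A) : Prog (CallMem A) (GR A) (Ac A) := p.map (Lens.idL _) (phi k)

theorem run_up0 {p : PC A} {D D' : DS} {t : ℕ} (r : Bool → Word)
    (h : Run (dc A) p (stc P D) t (stc P D')) :
    Run (dc A) (up0 p) (sto' P D r) t (sto' P D' r) := by
  have h2 := h.map (L := Lens.idL (CallMem A)) (ι := (Sum.inl : FT A → GR A)) Sum.inl_injective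
    (S := sto' P D r) rfl
  refine Run.to h2 le_rfl (Store.ext rfl ?_)
  funext f
  cases f with
  | inl g => exact Store.put_z_apply Sum.inl_injective _ _ g
  | inr k => exact Store.put_z_of_notMem _ _ (by simp)

theorem run_upR {p : PC A} {D D' : DS} {t : ℕ} (r : Bool → Word) (k : Bool)
    (hk : (r k).length = P.b) (hc : D'.cst = D.cst)
    (h : Run (dc A) p (stc P { D with cst := wv (r k) }) t
      (stc P { D' with cst := wv (r k) })) :
    Run (dc A) (upR k p) (sto' P D r) t (sto' P D' r) := by
  have hw := wz_wv hk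
  have h2 := h.map (L := Lens.idL (CallMem A)) (ι := phi (A := A) k) (phi_inj k)
    (S := sto' P D r) (by
      refine Store.ext rfl ?_
      funext f
      rcases f with f | f
      · cases f
        case cst =>
          show (⟨[], (r k).map bc⟩ : Zip (Ac A)) = ⟨[], (wz P.b (wv (r k))).map bc⟩
          rw [hw]
        all_goals rfl
      · rfl)
  refine Run.to h2 le_rfl (Store.ext rfl ?_)
  funext f
  by_cases hf : ∃ g, phi (A := A) k g = f
  · obtain ⟨g, rfl⟩ := hf
    rw [Store.put_z_apply (phi_inj k)]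
    rcases g with g | g
    · cases g
      case cst =>
        show (⟨[], (wz P.b (wv (r k))).map bc⟩ : Zip (Ac A)) = ⟨[], (r k).map bc⟩
        rw [hw]
      all_goals rfl
    · rfl
  · rw [Store.put_z_of_notMem _ _ (fun g hg => hf ⟨g, hg⟩)]
    rcases f with (f | f) | f
    · by_cases hs : f = .cst
      · subst hs
        show (⟨[], (wz P.b D.cst).map bc⟩ : Zip (Ac A)) = ⟨[], (wz P.b D'.cst).map bc⟩
        rw [hc]
      · exact absurd ⟨.inl f, phi_of_ne k hs⟩ hf
    · exact absurd ⟨.inr f, rfl⟩ hf
    · rfl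

theorem q_mulw (hA : Multiplies A) (hP : P.Ok) (D : DS) (c : Cell) (l s a b : List Cell)
    (r : Bool → Word) (k : Bool) (hk : (r k).length = P.b) :
    Run (dc A) (upR k (mulw A)) (sto' P (Q D ⟨l, c :: s⟩ a b) r) (tmw A P)
      (sto' P (Q D ⟨l, cMulw P (wv (r k)) c :: s⟩ a b) r) :=
  run_upR r k hk rfl
    (run_mulw (A := A) hA hP { Q D ⟨l, c :: s⟩ a b with cst := wv (r k) } c s rfl)

end lift

/-! ### The product with a complex constant -/

/-- First part. -/
noncomputable def cmul1 (A : MTM) [DecidableEq A.Tape] : Prog (CallMem A) (GR A) (Ac A) :=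
  .seq (up0 (pPush A false)) (.seq (upR true (mulw A)) (.seq (up0 (pPush A true))
  (.seq (up0 (pSet A false)) (.seq (upR false (mulw A)) (.seq (up0 (pR A))
  (.seq (up0 (pPush A false)) (.seq (upR false (mulw A)) (up0 (pAdd A false true)))))))))

/-- Second part. -/
noncomputable def cmul2 (A : MTM) [DecidableEq A.Tape] : Prog (CallMem A) (GR A) (Ac A) :=
  .seq (up0 (pPush A true)) (.seq (up0 (pSet A false)) (.seq (upR true (mulw A))
  (.seq (up0 (pPush A false)) (.seq (up0 (pSet A true)) (.seq (up0 (pL A))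
  (.seq (up0 (pAdd A true false)) (.seq (up0 (pR A)) (up0 (pR A)))))))))

/-- The program of the opcode 9. -/
noncomputable def cmulP (A : MTM) [DecidableEq A.Tape] : Prog (CallMem A) (GR A) (Ac A) :=
  .seq (cmul1 A) (cmul2 A)

section cmul

variable {A : MTM} [DecidableEq A.Tape] {P : CPar}

theorem run_cmul1 (hA : Multiplies A) (hP : P.Ok) (D : DS) (x y : Cell) (l s a b : List Cell)
    (r : Bool → Word) (h0 : (r false).length = P.b) (h1 : (r true).length = P.b) :
    Run (dc A) (cmul1 A) (sto' P (Q D ⟨l, x :: y :: s⟩ a b) r) (3 * tmw A P + 6 * U P)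
      (sto' P (Q D ⟨cMulw P (wv (r false)) x :: l,
        cAdd (cMulw P (wv (r false)) y) (cMulw P (wv (r true)) x) :: s⟩ (y :: a) b) r) := by
  refine Run.to (Run.seq (run_up0 r (q_pushA D x l _ a b))
    (Run.seq (q_mulw hA hP D x _ _ _ _ r true h1)
    (Run.seq (run_up0 r (q_pushB D _ _ _ _ _))
    (Run.seq (run_up0 r (q_setA D _ x _ _ _ _))
    (Run.seq (q_mulw hA hP D x _ _ _ _ r false h0)
    (Run.seq (run_up0 r (q_R D _ _ _ _ _))
    (Run.seq (run_up0 r (q_pushA D y _ _ _ _))
    (Run.seq (q_mulw hA hP D y _ _ _ _ r false h0)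
    (run_up0 r (q_addB D _ _ _ _ _ _ hP)))))))))) ?_ rfl
  omega

theorem run_cmul2 (hA : Multiplies A) (hP : P.Ok) (D : DS) (p q y : Cell) (l s a b : List Cell)
    (r : Bool → Word) (h1 : (r true).length = P.b) :
    Run (dc A) (cmul2 A) (sto' P (Q D ⟨p :: l, q :: s⟩ (y :: a) b) r) (tmw A P + 8 * U P)
      (sto' P (Q D ⟨q :: cSub p (cMulw P (wv (r true)) y) :: l, s⟩ a b) r) := by
  refine Run.to (Run.seq (run_up0 r (q_pushB D q _ _ _ _))
    (Run.seq (run_up0 r (q_setA D _ y _ _ _ _))
    (Run.seq (q_mulw hA hP D y _ _ _ _ r true h1)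
    (Run.seq (run_up0 r (q_pushA D _ _ _ _ _))
    (Run.seq (run_up0 r (q_setB D _ q _ _ _ _))
    (Run.seq (run_up0 r (q_L D p _ _ _ _))
    (Run.seq (run_up0 r (q_subA D p _ _ _ _ _ hP))
    (Run.seq (run_up0 r (q_R D _ _ _ _ _))
    (run_up0 r (q_R D q _ _ _ _)))))))))) ?_ rfl
  omega

theorem run_cmulP (hA : Multiplies A) (hP : P.Ok) (D : DS) (x y : Cell) (l s : List Cell)
    (r : Bool → Word) (h0 : (r false).length = P.b) (h1 : (r true).length = P.b)
    (h : D.X = ⟨l, x :: y :: s⟩) :
    Run (dc A) (cmulP A) (sto' P D r) (4 * tmw A P + 14 * U P)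
      (sto' P { D with X := ⟨cmIm P (wv (r false)) (wv (r true)) x y ::
        cmRe P (wv (r false)) (wv (r true)) x y :: l, s⟩ } r) := by
  have e0 : Q D ⟨l, x :: y :: s⟩ D.A D.B = D := by
    rw [← h]
    rfl
  have k1 := run_cmul1 (A := A) hA hP D x y l s D.A D.B r h0 h1
  rw [e0] at k1
  have e1 : cAdd (cMulw P (wv (r false)) y) (cMulw P (wv (r true)) x) =
      cmIm P (wv (r false)) (wv (r true)) x y := by
    funext j
    simp only [cAdd, cmIm]
    ring
  rw [e1] at k1
  have k2 := run_cmul2 (A := A) hA hP D (cMulw P (wv (r false)) x)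
    (cmIm P (wv (r false)) (wv (r true)) x y) y l s D.A D.B r h1
  exact Run.to (Run.seq k1 k2) (by omega) rfl

end cmul

/-! ### All operations -/

/-- The weights. -/
noncomputable def wt (A : MTM) (P : CPar) (o : ℕ) : ℕ :=
  if o = 9 then tmw A P + (P.ell + 1) else if o = 10 then tmp A P + (P.ell + 1) else P.ell + 1

/-- The programs of the acts. -/
noncomputable def opP (A : MTM) [DecidableEq A.Tape] (o : ℕ) : Prog (CallMem A) (GR A) (Ac A) :=
  if o = 9 then cmulP A else if o = 10 then up0 (prodP A) else if o = 14 then up0 (unlP A)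
  else if o = 11 ∨ o = 12 then up0 (Vale.Agent.P338.R3.H884.pLoad A (o == 12))
  else up0 (pFree A o)

theorem run_opP {A : MTM} [DecidableEq A.Tape] (hA : Multiplies A) {P : CPar} (hP : P.Ok)
    {o : ℕ} {r : Bool → Word} {D D' : DS} (h : Ex1 P (o, r false, r true) D D') :
    Run (dc A) (opP A o) (sto' P D r) (1500 * wt A P o) (sto' P D' r) := by
  have ho : o < 16 := Vale.Agent.P338.R3.H898.Ex1.lt h
  generalize hu : r false = u at h
  generalize hv : r true = v at h
  by_cases h9 : o = 9
  · subst h9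
    cases h with
    | cmul _ _ _ x y l s h1 h2 h3 =>
      have k := run_cmulP (A := A) hA hP D x y l s r (hu ▸ h1) (hv ▸ h2) h3
      rw [hu, hv] at k
      exact k.mono (by simp only [wt, if_true, U]; omega)
  by_cases h10 : o = 10
  · subst h10
    cases h with
    | prod _ x y x' y' l s h1 =>
      have k := run_up0 r (run_prodP (A := A) hA hP D x y x' y' l s h1)
      have e : wt A P 10 = tmp A P + (P.ell + 1) := by simp [wt]
      exact k.mono (by simp only [e, U]; omega)
  have e : wt A P o = P.ell + 1 := by simp [wt, h9, h10]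
  rw [e]
  by_cases h14 : o = 14
  · subst h14
    cases h with
    | unl _ c y l s b h1 h2 h3 =>
      have k := run_up0 r (run_unlP (A := A) hP D c y l s b h1 h2)
      exact k.mono (by simp only [U]; omega)
  by_cases h11 : o = 11 ∨ o = 12
  · have k := run_up0 r (Vale.Agent.P338.R3.H884.run_load (A := A) hP h11 h)
    have e2 : opP A o = up0 (Vale.Agent.P338.R3.H884.pLoad A (o == 12)) := by
      simp [opP, h9, h10, h14, h11]
    rw [e2]
    exact k.mono (by omega)
  · have hf : isFree o = true := by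
      simp only [isFree, Bool.or_eq_true, decide_eq_true_eq, beq_iff_eq]
      omega
    have k := run_up0 r (run_free (A := A) hP hf h)
    have e2 : opP A o = up0 (pFree A o) := by
      simp [opP, h9, h10, h14, h11]
    rw [e2]
    exact k.mono (by omega)

/-- **The operations of the cell machine.** -/
theorem ops {A : MTM} (hA : Multiplies A) :
    Ops (dc A) bc (mem0 A) (repD (A := A)) (Mo (wt A)) 1500 := by
  classical
  intro o
  let _ := Classical.decEq A.Tape
  refine ⟨inferInstance, opP A (o : ℕ), fun r x t x' hx => ?_⟩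
  obtain ⟨hP, h1, h2, h3, h4⟩ := hx
  obtain ⟨P, D⟩ := x
  obtain ⟨P', D'⟩ := x'
  simp only at h1 h3 h4 hP
  subst h1 h4
  exact run_opP hA hP h3

end Vale.Agent.P338.R3.H784
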