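import Vale.Agent.P338.R3.H784.EmitW

/-!
P338-D: release of the lower half of a cell.
-/

namespace Vale.Agent.P338.R3.H784

open Vale.Agent.P338.R2.H898 hiding val
open Prog
open Vale.Agent.P338.R2.H968
open Vale.Agent.P338.R2.H784
open Vale.Agent.P338.R3.H968
open Vale.Agent.P338.R2.H968.CallEnv (mem0)
open Vale.Agent.P338.R2.H778 (bits val length_bits)
open Vale.Agent.P338.R3.H525 (wds_succ wds_add length_wds)
open Function (update)

theorem emit_cons (P : CPar) (x : Cell) (n k c : ℕ) :
    emit P x (n + 1) k c =
      ((bits P.w (nc P (x k) c)).reverse ++ (emit P x n (k + 1) (nc P (x k) c / 2 ^ P.w)).1,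
        (emit P x n (k + 1) (nc P (x k) c / 2 ^ P.w)).2) := rfl

/-- The last digit of a release. -/
theorem emit_snoc (P : CPar) (x : Cell) (n k c : ℕ) :
    emit P x (n + 1) k c =
      ((emit P x n k c).1 ++ (bits P.w (nc P (x (k + n)) (emit P x n k c).2)).reverse,
        nc P (x (k + n)) (emit P x n k c).2 / 2 ^ P.w) := by
  induction n generalizing k c with
  | zero =>
    rw [emit_cons]
    simp only [emit, List.nil_append, List.append_nil, Nat.add_zero]
  | succ n ih =>
    have e : k + 1 + n = k + (n + 1) := by ring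
    rw [emit_cons P x (n + 1), ih, emit_cons P x n, e]
    simp only [List.append_assoc]

theorem wds_split1 (b m i : ℕ) (x : Cell) :
    wds b (m + 1) (fun j => x (j + i)) = wds b m (fun j => x (j + (i + 1))) ++ wz b (x i) := by
  rw [wds_add b m 1]
  congr 1
  · congr 1
    funext j
    congr 1
    ring
  · rw [wds_succ]
    simp [wds]

variable {A : MTM}

/-- Release of the lower half of the current cell of `x`. -/
def emitP (A : MTM) : PC A :=
  .seq (rN (cf .x) (rf .ell)) (.seq (forR (rf .Y) (em1 A)) (lN (cf .x) (rf .Yb)))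

/-- The file `x` after `i` words. -/
def exf (P : CPar) (e : Cell) (u v : List (Ac A)) (i : ℕ) : Zip (Ac A) :=
  ⟨((wds P.b (P.nw - i) fun j => e (j + i)).map bc).reverse ++ u, (wds P.b i e).map bc ++ v⟩

/-- The files after `i` words. -/
def ezf (P : CPar) (e : Cell) (out : List Bool) (acc : ℕ) (u v : List (Ac A))
    (o : CF → Zip (Ac A)) (i : ℕ) : CF → Zip (Ac A) :=
  update (update (update o .x (exf P e u v i))
    .out ⟨(out ++ (emit P e i 0 acc).1).reverse.map bc, []⟩)
    .acc ⟨[], (bits P.b (emit P e i 0 acc).2).map bc⟩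

section
variable [DecidableEq (FT A)]

theorem run_ezf {P : CPar} (hP : P.Ok) {m : CallMem A} {e : Cell} {out : List Bool} {acc : ℕ}
    {u v : List (Ac A)} {o : CF → Zip (Ac A)}
    (hr : ∀ k, o (.r k) = ⟨[], List.replicate (rv P k) .u⟩)
    (h0 : o (.h 0) = ⟨[], []⟩) (h1 : o (.h 1) = ⟨[], []⟩) {i : ℕ} (hi : i < P.Y)
    (q : Zip (Ac A)) :
    Run (dc A) (em1 A) ⟨m, update (S0 (ezf P e out acc u v o i)) (rf .Y) q⟩ (74 * P.b)
      ⟨m, update (S0 (ezf P e out acc u v o (i + 1))) (rf .Y) q⟩ := by
  have hn : P.nw - i = (P.nw - (i + 1)) + 1 := by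
    unfold CPar.nw
    omega
  have hx : update (ezf P e out acc u v o i) (.r .Y) q .x =
      ⟨((wz P.b (e i)).map bc).reverse ++
        (((wds P.b (P.nw - (i + 1)) fun j => e (j + (i + 1))).map bc).reverse ++ u),
        (wds P.b i e).map bc ++ v⟩ := by
    rw [Function.update_of_ne (by simp), ezf, Function.update_of_ne (by simp),
      Function.update_of_ne (by simp), Function.update_self, exf, hn, wds_split1,
      List.map_append, List.reverse_append, List.append_assoc]
  have key := run_em1 (A := A) hP (m := m) (z := e i) (c := (emit P e i 0 acc).2)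
    (u := ((wds P.b (P.nw - (i + 1)) fun j => e (j + (i + 1))).map bc).reverse ++ u)
    (v := (wds P.b i e).map bc ++ v)
    (O := (out ++ (emit P e i 0 acc).1).reverse.map bc)
    (o := update (ezf P e out acc u v o i) (.r .Y) q)
    (fun k hk => by
      rw [Function.update_of_ne (by simpa using hk), ezf, Function.update_of_ne (by simp),
        Function.update_of_ne (by simp), Function.update_of_ne (by simp), hr])
    hx
    (by rw [Function.update_of_ne (by simp), ezf, Function.update_of_ne (by simp),
      Function.update_self])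
    (by rw [Function.update_of_ne (by simp), ezf, Function.update_self])
    (by rw [Function.update_of_ne (by simp), ezf, Function.update_of_ne (by simp),
        Function.update_of_ne (by simp), Function.update_of_ne (by simp), h0])
    (by rw [Function.update_of_ne (by simp), ezf, Function.update_of_ne (by simp),
        Function.update_of_ne (by simp), Function.update_of_ne (by simp), h1])
  rw [upd_cf, upd_cf]
  refine Run.to key le_rfl ?_
  congr 2
  have e2 := emit_snoc P e i 0 acc
  rw [Nat.zero_add] at e2
  funext k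
  simp only [ezf, exf, e2, wds_succ, Function.update_apply, List.reverse_append,
    List.map_append, List.reverse_reverse, List.append_assoc]
  split_ifs <;> simp_all

omit [DecidableEq (FT A)] in
theorem emit_final {P : CPar} {D : DS} {e : Cell} {r : List Cell} {u v : List (Ac A)}
    (hX : D.X.r = e :: r)
    (hu : u = (D.X.l.flatMap fun c => (cellB P c).reverse).map bc)
    (hv : v = (r.flatMap (cellB P)).map bc) :
    update (ezf P e D.out D.acc u v (fc P D) P.Y) .x
      ⟨u, (wds P.b P.Y fun j => e (j + P.Y)).map bc ++ ((wds P.b P.Y e).map bc ++ v)⟩ =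
    fc P { D with
        out := D.out ++ (emit P e P.Y 0 D.acc).1, acc := (emit P e P.Y 0 D.acc).2 } := by
  have hn : P.nw = P.Y + P.Y := by
    unfold CPar.nw
    ring
  have hx : (fc P D .x : Zip (Ac A)) =
      ⟨u, (wds P.b P.Y fun j => e (j + P.Y)).map bc ++ ((wds P.b P.Y e).map bc ++ v)⟩ := by
    simp only [fc, zc, hX, hu, hv, List.flatMap_cons, List.map_append, cellB, hn, wds_add,
      List.append_assoc]
  rw [← hx]
  funext k
  cases k <;> rfl

theorem emit_cost {P : CPar} (hP : P.Ok) :
    P.ell * 3 + 2 + (P.Y * (74 * P.b + 2) + 2 + (P.Y * P.b * 3 + 2)) ≤ 50 * P.ell := by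
  have hb := hP.hb
  have hY := hP.hY
  have h1 : P.ell = 2 * (P.Y * P.b) := by
    unfold CPar.ell CPar.nw
    ring
  have h2 : P.Y * 2 ≤ P.Y * P.b := Nat.mul_le_mul_left _ (by have := hP.hs; have := hP.hw; omega)
  have h3 : P.Y * (74 * P.b + 2) = 74 * (P.Y * P.b) + P.Y * 2 := by ring
  omega

theorem run_emit {P : CPar} (hP : P.Ok) {D : DS} {e : Cell} {r : List Cell}
    (hX : D.X.r = e :: r) :
    Run (dc A) (emitP A) (stc P D) (50 * P.ell)
      (stc P { D with
        out := D.out ++ (emit P e P.Y 0 D.acc).1, acc := (emit P e P.Y 0 D.acc).2 }) := by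
  have hb := hP.hb
  have hY := hP.hY
  obtain ⟨u, hu⟩ : ∃ u : List (Ac A), u = (D.X.l.flatMap fun c => (cellB P c).reverse).map bc :=
    ⟨_, rfl⟩
  obtain ⟨v, hv⟩ : ∃ v : List (Ac A), v = (r.flatMap (cellB P)).map bc := ⟨_, rfl⟩
  have hx : (fc P D .x : Zip (Ac A)) = ⟨u, (cellB P e).map bc ++ v⟩ := by
    simp only [fc, zc, hX, hu, hv, List.flatMap_cons, List.map_append]
  have lc : ((cellB P e).map (bc (A := A))).length = P.ell := by
    rw [List.length_map, length_cellB]
  have s1 := run_rN (d := dc A) (f := cf .x) (r := rf .ell) (by simp)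
    (x := (cellB P e).map bc) (u := u) (v := v) (R := List.replicate P.ell .u) (m := mem0 A)
    (z := S0 (fc P D)) (by rw [lc, List.length_replicate]) (by rw [S0_cf, hx])
    (by rw [S0_cf]; rfl)
  rw [upd_cf, List.length_replicate] at s1
  have e0 : update (fc P D) .x ⟨((cellB P e).map bc).reverse ++ u, v⟩ =
      ezf P e D.out D.acc u v (fc P D) 0 := by
    have ha : (fc P D : CF → Zip (Ac A)) .acc = ⟨[], (bits P.b D.acc).map bc⟩ := rfl
    have ho : (fc P D : CF → Zip (Ac A)) .out = ⟨D.out.reverse.map bc, []⟩ := rfl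
    funext k
    simp only [ezf, exf, emit, List.append_nil, Nat.sub_zero, Nat.add_zero,
      Function.update_apply]
    split_ifs <;> simp_all [cellB, wds]
  rw [e0] at s1
  have s2 := run_forR (d := dc A) (r := rf .Y) (p := em1 A) (R := List.replicate P.Y .u)
    (m := mem0 A) (fun i => S0 (ezf P e D.out D.acc u v (fc P D) i)) (74 * P.b)
    (fun i => by
      rw [S0_cf, ezf, Function.update_of_ne (by simp), Function.update_of_ne (by simp),
        Function.update_of_ne (by simp)]
      rfl)
    (fun i hi => run_ezf hP (fun k => rfl) rfl rfl (by rwa [List.length_replicate] at hi) _)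
  rw [List.length_replicate] at s2
  have hn : P.nw - P.Y = P.Y := by unfold CPar.nw; omega
  have s3 := run_lN (d := dc A) (f := cf .x) (r := rf .Yb) (by simp)
    (x := ((wds P.b P.Y fun j => e (j + P.Y)).map bc).reverse) (u := u)
    (v := (wds P.b P.Y e).map bc ++ v) (R := List.replicate (P.Y * P.b) .u) (m := mem0 A)
    (z := S0 (ezf P e D.out D.acc u v (fc P D) P.Y))
    (by rw [List.length_reverse, List.length_map, length_wds, List.length_replicate])
    (by rw [S0_cf, ezf, Function.update_of_ne (by simp), Function.update_of_ne (by simp),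
      Function.update_self, exf, hn])
    (by
      rw [S0_cf, ezf, Function.update_of_ne (by simp), Function.update_of_ne (by simp),
        Function.update_of_ne (by simp)]
      rfl)
  rw [upd_cf, List.length_replicate, List.reverse_reverse] at s3
  unfold stc
  rw [ft_eq, ft_eq]
  refine Run.to (Run.seq s1 (Run.seq s2 s3)) (emit_cost hP) ?_
  rw [emit_final hX hu hv]

end

end Vale.Agent.P338.R3.H784
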