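import Vale.Agent.P338.R3.H968.Wmul
import Vale.Agent.P338.R3.H525.Word

/-!
P338-D: release of the lower half of a cell: the digits are added with carries and appended to the
output.
-/

namespace Vale.Agent.P338.R3.H784

open Vale.Agent.P338.R2.H898 hiding val
open Prog
open Vale.Agent.P338.R2.H968
open Vale.Agent.P338.R2.H784
open Vale.Agent.P338.R3.H968
open Vale.Agent.P338.R2.H778 (bits val length_bits bits_add bits_zero bits_mod)
open Vale.Agent.P338.R3.H525 (addBit run_addBit rip rc rip_snoc rip_add wz_succ wz_reverse_succ)
open Function (update)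

section gen

variable {M F α : Type} [DecidableEq F] {d : α}

/-- Addition of one word with initial carry. -/
def addK (bt : Bool → α) (ub : α → Bool) (t A cy r : F) : Prog M F α :=
  .seq (forR r (addBit bt ub false t A cy)) (act cy .trunc)

theorem run_addK {bt : Bool → α} {ub : α → Bool} (hb : ∀ b, ub (bt b) = b)
    {t A cy r : F} (h1 : t ≠ A) (h2 : t ≠ cy) (h3 : A ≠ cy) (h4 : t ≠ r) (h5 : A ≠ r)
    (h6 : cy ≠ r) {xs ys : List Bool} {c0 : Bool} {R l w u : List α} {m : M}
    {z : F → Zip α} (hx : xs.length = R.length) (hy : ys.length = R.length)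
    (ht : z t = ⟨xs.map bt ++ l, w⟩) (hA : z A = ⟨ys.map bt ++ u, []⟩)
    (hc : z cy = ⟨[], [bt c0]⟩) (hr : z r = ⟨[], R⟩) :
    Run d (addK bt ub t A cy r) ⟨m, z⟩ (R.length * 7 + 3)
      ⟨m, update (update (update z t ⟨l, ((rip false c0 xs ys).map bt).reverse ++ w⟩) A ⟨u, []⟩)
        cy ⟨[], []⟩⟩ := by
  set Z : ℕ → F → Zip α := fun i => update (update (update z t
    ⟨(xs.drop i).map bt ++ l, ((rip false c0 (xs.take i) (ys.take i)).map bt).reverse ++ w⟩) A
    ⟨(ys.drop i).map bt ++ u, []⟩) cy
      ⟨[], [bt (rc false c0 (xs.take i) (ys.take i))]⟩ with hZ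
  have e2 := run_forR (d := d) (r := r) (p := addBit bt ub false t A cy) (R := R) (m := m) Z 5
    (fun i => by
      rw [hZ]
      simp only [Function.update_of_ne h6.symm, Function.update_of_ne h5.symm,
        Function.update_of_ne h4.symm, hr])
    (fun i hi => by
      have hi1 : i < xs.length := by omega
      have hi2 : i < ys.length := by omega
      have k1 := run_addBit (d := d) (sb := false) hb h1 h2 h3 (p := xs[i]) (q := ys[i])
        (c := rc false c0 (xs.take i) (ys.take i)) (l := (xs.drop (i + 1)).map bt ++ l)
        (r := ((rip false c0 (xs.take i) (ys.take i)).map bt).reverse ++ w)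
        (u := (ys.drop (i + 1)).map bt ++ u) (m := m) (z := update (Z i) r (zipAt R i))
        (by
          rw [Function.update_of_ne h4, hZ]
          simp only [Function.update_of_ne h2, Function.update_of_ne h1, Function.update_self]
          rw [List.drop_eq_getElem_cons hi1]
          rfl)
        (by
          rw [Function.update_of_ne h5, hZ]
          simp only [Function.update_of_ne h3, Function.update_self]
          rw [List.drop_eq_getElem_cons hi2]
          rfl)
        (by
          rw [Function.update_of_ne h6, hZ]
          simp only [Function.update_self])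
      have k2 := rip_snoc false c0 (xs.take i) (ys.take i) xs[i] ys[i] (by
        rw [List.length_take, List.length_take]; omega)
      rw [← List.take_succ_eq_append_getElem hi1, ← List.take_succ_eq_append_getElem hi2] at k2
      convert k1 using 2
      rw [hZ]
      simp only [k2.1, k2.2, List.map_append, List.reverse_append, List.map_cons, List.map_nil,
        List.reverse_cons, List.reverse_nil, List.nil_append, List.cons_append]
      funext k
      simp only [Function.update_apply]
      split_ifs <;> simp_all)
  have e3 := run_act (d := d) cy (.trunc : Op α) ⟨m, Z R.length⟩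
  have q1 : Z 0 = z := by
    rw [hZ]
    simp only [List.drop_zero, List.take_zero, rip, rc, List.map_nil, List.reverse_nil,
      List.nil_append]
    rw [upd_self z t _ ht, upd_self z A _ hA, upd_self z cy _ hc]
  have q2 : update (Z R.length) cy ((Op.trunc : Op α).app d (Z R.length cy)) =
      update (update (update z t ⟨l, ((rip false c0 xs ys).map bt).reverse ++ w⟩) A ⟨u, []⟩)
        cy ⟨[], []⟩ := by
    rw [hZ]
    simp only [Function.update_self, app_trunc, Function.update_idem]
    rw [← hx, List.drop_length, List.take_length, hx, ← hy, List.drop_length, List.take_length]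
    simp only [List.map_nil, List.nil_append]
  rw [q1] at e2
  simp only at e3
  rw [q2] at e3
  exact (Run.seq e2 e3).mono (by omega)

/-- Move the last symbol of `f` to the end of `g`. -/
def pop1 (e : α) (f g : F) : Prog M F α :=
  .seq (act f .left) (.seq (put1 g (rd e f)) (act f .trunc))

theorem run_pop1 {e : α} {f g : F} (hfg : f ≠ g) {a : α} {u v : List α} {m : M}
    {z : F → Zip α} (hf : z f = ⟨a :: u, []⟩) (hg : z g = ⟨v, []⟩) :
    Run d (pop1 e f g) ⟨m, z⟩ 4 ⟨m, update (update z f ⟨u, []⟩) g ⟨a :: v, []⟩⟩ := by
  have h1 := run_act' (d := d) (f := f) (o := .left) (v := ⟨u, [a]⟩) (m := m) (z := z)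
    (by rw [hf]; rfl)
  have h2 := run_put1 (d := d) (g := g) (s := rd e f) (a := a) (u := v) (v := []) (m := m)
    (z := update z f ⟨u, [a]⟩) (by rw [Function.update_of_ne hfg.symm, hg])
    (by simp [rd])
  have h3 := run_act' (d := d) (f := f) (o := .trunc) (v := ⟨u, []⟩) (m := m)
    (z := update (update z f ⟨u, [a]⟩) g ⟨a :: v, [].tail⟩)
    (by rw [Function.update_of_ne hfg, Function.update_self]; rfl)
  have h4 := Run.seq h1 (Run.seq h2 h3)
  have e1 : update (update (update z f ⟨u, [a]⟩) g ⟨a :: v, [].tail⟩) f ⟨u, []⟩ =
      update (update z f ⟨u, []⟩) g ⟨a :: v, []⟩ := by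
    funext k
    simp only [Function.update_apply, List.tail_nil]
    split_ifs <;> simp_all
  rw [e1] at h4
  exact h4.mono (by omega)

/-- Move the last `|r|` symbols of `f` to the end of `g`, in reversed order. -/
def popN (e : α) (f g r : F) : Prog M F α := forR r (pop1 e f g)

theorem run_popN {e : α} {f g r : F} (hfg : f ≠ g) (hfr : f ≠ r) (hgr : g ≠ r)
    {x u v R : List α} {m : M} {z : F → Zip α} (hlen : x.length = R.length)
    (hf : z f = ⟨x ++ u, []⟩) (hg : z g = ⟨v, []⟩) (hr : z r = ⟨[], R⟩) :
    Run d (popN e f g r) ⟨m, z⟩ (R.length * 6 + 2)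
      ⟨m, update (update z f ⟨u, []⟩) g ⟨x.reverse ++ v, []⟩⟩ := by
  have h1 := run_forR (d := d) (r := r) (p := pop1 e f g) (R := R) (m := m)
    (fun i => update (update z f ⟨x.drop i ++ u, []⟩) g ⟨(x.take i).reverse ++ v, []⟩) 4
    (fun i => by
      rw [Function.update_of_ne hgr.symm, Function.update_of_ne hfr.symm, hr])
    (fun i hi => by
      rw [← hlen] at hi
      have h2 := run_pop1 (d := d) (e := e) hfg (a := x[i]) (u := x.drop (i + 1) ++ u)
        (v := (x.take i).reverse ++ v) (m := m)
        (z := update (update (update z f ⟨x.drop i ++ u, []⟩) g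
          ⟨(x.take i).reverse ++ v, []⟩) r (zipAt R i))
        (by
          rw [Function.update_of_ne hfr, Function.update_of_ne hfg, Function.update_self,
            List.drop_eq_getElem_cons hi]
          rfl)
        (by rw [Function.update_of_ne hgr, Function.update_self])
      rw [getD_map_take_succ hi] at h2
      convert h2 using 2
      funext k
      simp only [Function.update_apply]
      split_ifs <;> simp_all)
  simp only [List.take_zero, List.reverse_nil, List.nil_append, List.drop_zero] at h1
  rw [upd_self z f _ hf, upd_self z g _ hg, ← hlen, List.take_length, List.drop_length,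
    List.nil_append, hlen] at h1
  exact h1.mono (by omega)

end gen

end Vale.Agent.P338.R3.H784
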