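import Vale.Agent.P338.R3.H784.Emit
import Vale.Agent.P338.R3.H525.OpsX

/-!
P338-D: release of the lower half of a cell, one word.
-/

namespace Vale.Agent.P338.R3.H784

open Vale.Agent.P338.R2.H898 hiding val
open Prog
open Vale.Agent.P338.R2.H968
open Vale.Agent.P338.R2.H784
open Vale.Agent.P338.R3.H968
open Vale.Agent.P338.R2.H778 (bits val length_bits bits_add bits_zero bits_mod)
open Vale.Agent.P338.R3.H525 (addBit run_addBit rip rc rip_snoc rip_add wz_succ wz_reverse_succ
  ub_bc)
open Function (update)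

theorem wz_add (a s : ℕ) (y : ℤ) : wz (a + s) y = wz a (y / 2 ^ s) ++ wz s y := by
  have h0 : (0 : ℤ) < 2 ^ (a + s) := by positivity
  have h1 : y ≡ (((y % 2 ^ (a + s)).toNat : ℕ) : ℤ) [ZMOD 2 ^ (a + s)] := by
    rw [Int.toNat_of_nonneg (Int.emod_nonneg _ h0.ne')]
    exact (Int.mod_modEq _ _).symm
  rw [wz_eq_bits h1, bits_add]
  congr 1
  · rw [← wz_nat]
    refine (wz_congr ?_).symm
    push_cast
    exact div_congr h1
  · rw [← wz_nat]
    exact (wz_congr (h1.of_dvd (pow_dvd_pow _ (by omega)))).symm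

theorem wz_one (q : ℤ) : wz 1 q = [decide (q % 2 = 1)] := by
  rw [show (1 : ℕ) = 0 + 1 from rfl, wz_succ]
  rfl

/-- The rounding bit. -/
def rb (P : CPar) (z : ℤ) : Bool := decide (sg P.b z / 2 ^ (P.s - 1) % 2 = 1)

/-- The lower part of a word. -/
theorem wz_low {P : CPar} (hP : P.Ok) (z : ℤ) :
    (wz P.b z).drop (P.b - P.s) = rb P z :: wz (P.s - 1) (sg P.b z) := by
  have hb := hP.hb
  have hs := hP.hs
  have e1 : wz P.b z = wz (P.b - P.s) (sg P.b z / 2 ^ P.s) ++ wz P.s (sg P.b z) := by
    rw [← wz_add, Nat.sub_add_cancel (by omega), wz_sg]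
  rw [e1, List.drop_append_of_le_length (by rw [length_wz]),
    List.drop_of_length_le (by rw [length_wz]), List.nil_append]
  have e2 : wz P.s (sg P.b z) = wz (1 + (P.s - 1)) (sg P.b z) := by
    congr 1
    omega
  rw [e2, wz_add, wz_one]
  rfl

/-- The upper part of a word, with sign extension. -/
theorem wz_high {P : CPar} (hP : P.Ok) (z : ℤ) :
    List.replicate P.s (sgb P.b z) ++ (wz P.b z).take (P.b - P.s) =
      wz P.b (sg P.b z / 2 ^ P.s) := by
  have hb := hP.hb
  have e := sext_eq (b := P.b) (by omega) P.s z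
  rw [Nat.add_comm P.s P.b, wz_add] at e
  have e3 : List.take P.b (List.replicate P.s (sgb P.b z) ++ wz P.b z) =
      List.replicate P.s (sgb P.b z) ++ (wz P.b z).take (P.b - P.s) := by
    rw [List.take_append, List.take_of_length_le (by rw [List.length_replicate]; omega),
      List.length_replicate]
  rw [← e3, e, List.take_append_of_le_length (by rw [length_wz]),
    List.take_of_length_le (by rw [length_wz])]

/-- Rounding is division with a carry. -/
theorem rnd_eq {P : CPar} (hP : P.Ok) (z : ℤ) :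
    rnd P z = sg P.b z / 2 ^ P.s + if rb P z then 1 else 0 := by
  have hs := hP.hs
  unfold rnd rb
  set y := sg P.b z
  have e1 : (2 : ℤ) ^ P.s = 2 ^ (P.s - 1) * 2 := by
    rw [← pow_succ]
    congr 1
    omega
  have hp : (0 : ℤ) < 2 ^ (P.s - 1) := by positivity
  rw [e1, ← Int.ediv_ediv_of_nonneg hp.le, ← Int.ediv_ediv_of_nonneg hp.le]
  have e2 : (y + 2 ^ (P.s - 1)) / 2 ^ (P.s - 1) = y / 2 ^ (P.s - 1) + 1 := by
    rw [Int.add_ediv_of_dvd_right (dvd_refl _), Int.ediv_self hp.ne']
  rw [e2]
  set q := y / 2 ^ (P.s - 1)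
  by_cases h : q % 2 = 1
  · simp only [h, decide_true, if_true]
    omega
  · simp only [h, decide_false]
    simp only [Bool.false_eq_true, if_false]
    omega

/-- The new sum. -/
def nc (P : CPar) (z : ℤ) (c : ℕ) : ℕ := (c + (rnd P z % 2 ^ P.b).toNat) % 2 ^ P.b

theorem wz_sum {P : CPar} (hP : P.Ok) (z : ℤ) (c : ℕ) :
    wz P.b ((c : ℤ) + sg P.b z / 2 ^ P.s + if rb P z then 1 else 0) = bits P.b (nc P z c) := by
  have h0 : (0 : ℤ) < 2 ^ P.b := by positivity
  rw [nc, bits_mod]
  apply wz_eq_bits
  rw [add_assoc, ← rnd_eq hP]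
  push_cast
  rw [Int.toNat_of_nonneg (Int.emod_nonneg _ h0.ne')]
  exact (Int.ModEq.refl _).add (Int.mod_modEq _ _).symm

theorem nc_lt (P : CPar) (z : ℤ) (c : ℕ) : nc P z c < 2 ^ P.b := Nat.mod_lt _ (by positivity)

/-- The new carry. -/
theorem bits_carry {P : CPar} (hP : P.Ok) (n : ℕ) (hn : n < 2 ^ P.b) :
    List.replicate P.w false ++ bits (P.b - P.w) (n / 2 ^ P.w) = bits P.b (n / 2 ^ P.w) := by
  have hb := hP.hb
  have e : P.b = P.w + (P.b - P.w) := by omega
  have e2 : n / 2 ^ P.w / 2 ^ (P.b - P.w) = 0 := by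
    rw [Nat.div_div_eq_div_mul, ← pow_add, ← e]
    exact Nat.div_eq_of_lt hn
  conv_rhs => rw [e, bits_add, e2, bits_zero]

theorem bits_split {P : CPar} (hP : P.Ok) (n : ℕ) :
    bits P.b n = bits (P.b - P.w) (n / 2 ^ P.w) ++ bits P.w n := by
  have hb := hP.hb
  rw [← bits_add, Nat.sub_add_cancel (by omega)]

variable {A : MTM}

/-- The word, rounded and divided. The head of `x` is at the right end of the word. -/
def em1a (A : MTM) : PC A :=
  .seq (lN (cf .x) (rf .b))
  (.seq (fillN (cf (.h 1)) (rf .s) (rd (dc A) (cf .x)))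
  (.seq (copyN (dc A) (cf .x) (cf (.h 1)) (rf .bs))
  (.seq (put1 (cf (.h 0)) (rd (dc A) (cf .x)))
  (.seq (act (cf (.h 0)) .rew)
  (lN (cf .x) (rf .bs))))))

/-- Addition to the carry. -/
def em1b (A : MTM) : PC A :=
  .seq (rN (cf .acc) (rf .b)) (addK bc Sy.unbit (cf .acc) (cf (.h 1)) (cf (.h 0)) (rf .b))

/-- Release of the digit. -/
def em1c (A : MTM) : PC A :=
  .seq (fillN (cf (.h 1)) (rf .w) (fun _ => bc false))
  (.seq (copyN (dc A) (cf .acc) (cf (.h 1)) (rf .bw))
  (.seq (rN (cf .acc) (rf .w))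
  (.seq (popN (dc A) (cf .acc) (cf .out) (rf .w))
  (.seq (clr (cf .acc))
  (.seq (act (cf (.h 1)) .rew)
  (.seq (copyN (dc A) (cf (.h 1)) (cf .acc) (rf .b))
  (.seq (act (cf .acc) .rew)
  (clr (cf (.h 1))))))))))

/-- Release of one digit. The head of `x` is at the right end of the word. -/
def em1 (A : MTM) : PC A := .seq (em1a A) (.seq (em1b A) (em1c A))

section
variable [DecidableEq (FT A)]

theorem run_em1a {P : CPar} (hP : P.Ok) {m : CallMem A} {z : ℤ}
    {u v : List (Ac A)} {o : CF → Zip (Ac A)}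
    (hr : ∀ k, k ≠ RN.Y → o (.r k) = ⟨[], List.replicate (rv P k) .u⟩)
    (hx : o .x = ⟨((wz P.b z).map bc).reverse ++ u, v⟩) (h0 : o (.h 0) = ⟨[], []⟩)
    (h1 : o (.h 1) = ⟨[], []⟩) :
    Run (dc A) (em1a A) ⟨m, S0 o⟩ (19 * P.b)
      ⟨m, S0 (update (update (update o .x ⟨u, (wz P.b z).map bc ++ v⟩)
        (.h 1) ⟨((wz P.b (sg P.b z / 2 ^ P.s)).reverse).map bc, []⟩)
        (.h 0) ⟨[], [bc (rb P z)]⟩)⟩ := by
  have hb := hP.hb
  have hs := hP.hs
  have hw := hP.hw
  have hb1 : 1 ≤ P.b := by omega
  have rlb : o (.r .b) = ⟨[], List.replicate P.b .u⟩ := hr .b (by simp)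
  set W : List (Ac A) := (wz P.b z).map bc with hW
  have lW : W.length = P.b := by rw [hW, List.length_map, length_wz]
  -- to the left end of the word
  have s1 := run_lN (d := dc A) (f := cf .x) (r := rf .b) (by simp) (x := W.reverse) (u := u)
    (v := v) (R := List.replicate P.b .u) (m := m) (z := S0 o) (by simp [lW]) hx rlb
  simp only [upd_cf, List.length_replicate, List.reverse_reverse] at s1
  -- the sign bits
  set o1 := update o .x ⟨u, W ++ v⟩ with ho1
  have rl1 : ∀ k, k ≠ RN.Y → o1 (.r k) = ⟨[], List.replicate (rv P k) .u⟩ := fun k hk => by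
    rw [ho1, Function.update_of_ne (by simp), hr k hk]
  have hx1 : o1 .x = ⟨u, W ++ v⟩ := by rw [ho1, Function.update_self]
  have hh1 : o1 (.h 1) = ⟨[], []⟩ := by rw [ho1, Function.update_of_ne (by simp), h1]
  have s2 := run_fillN (d := dc A) (g := cf (.h 1)) (r := rf .s) (s := rd (dc A) (cf .x))
    (by simp) (a := bc (sgb P.b z)) (u := []) (v := []) (R := List.replicate P.s .u) (m := m)
    (z := S0 o1) hh1 (rl1 .s (by simp))
    (fun y y' => by
      rw [rd, Function.update_of_ne (by simp), Function.update_of_ne (by simp)]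
      simp only [S_cf, hx1, hW, wz_eq_cons hb1]
      rfl)
  simp only [upd_cf, List.length_replicate, List.append_nil, List.drop_nil] at s2
  set T : List (Ac A) := ((wz P.b z).take (P.b - P.s)).map bc with hT
  set L : List (Ac A) := ((wz P.b z).drop (P.b - P.s)).map bc with hL
  have hWTL : W = T ++ L := by rw [hW, hT, hL, ← List.map_append, List.take_append_drop]
  have lT : T.length = P.b - P.s := by rw [hT, List.length_map, List.length_take, length_wz]; omega
  set o2 := update o1 (.h 1) ⟨List.replicate P.s (bc (sgb P.b z)), []⟩ with ho2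
  have rl2 : ∀ k, k ≠ RN.Y → o2 (.r k) = ⟨[], List.replicate (rv P k) .u⟩ := fun k hk => by
    rw [ho2, Function.update_of_ne (by simp), rl1 k hk]
  have hx2 : o2 .x = ⟨u, T ++ (L ++ v)⟩ := by
    rw [ho2, Function.update_of_ne (by simp), hx1, hWTL, List.append_assoc]
  have hh2 : o2 (.h 1) = ⟨List.replicate P.s (bc (sgb P.b z)), []⟩ := by
    rw [ho2, Function.update_self]
  -- the upper bits of the word
  have s3 := run_copyN (d := dc A) (e := dc A) (f := cf .x) (g := cf (.h 1)) (r := rf .bs)
    (by simp) (by simp) (by simp) (x := T) (y := L ++ v) (u := u)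
    (v := List.replicate P.s (bc (sgb P.b z))) (R := List.replicate (P.b - P.s) .u) (m := m)
    (z := S0 o2) (by simp [lT]) hx2 hh2 (rl2 .bs (by simp))
  simp only [upd_cf, List.length_replicate] at s3
  set H : List (Ac A) := ((wz P.b (sg P.b z / 2 ^ P.s)).reverse).map bc with hH
  have eH : T.reverse ++ List.replicate P.s (bc (sgb P.b z)) = H := by
    rw [hH, ← wz_high hP, List.reverse_append, List.map_append, List.reverse_replicate,
      List.map_replicate, hT, List.map_reverse]
  rw [eH] at s3
  set o3 := update (update o2 .x ⟨T.reverse ++ u, L ++ v⟩) (.h 1) ⟨H, []⟩ with ho3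
  have rl3 : ∀ k, k ≠ RN.Y → o3 (.r k) = ⟨[], List.replicate (rv P k) .u⟩ := fun k hk => by
    rw [ho3, Function.update_of_ne (by simp), Function.update_of_ne (by simp), rl2 k hk]
  have hx3 : o3 .x = ⟨T.reverse ++ u, L ++ v⟩ := by
    rw [ho3, Function.update_of_ne (by simp), Function.update_self]
  have hz3 : o3 (.h 0) = ⟨[], []⟩ := by
    rw [ho3, Function.update_of_ne (by simp), Function.update_of_ne (by simp), ho2,
      Function.update_of_ne (by simp), ho1, Function.update_of_ne (by simp), h0]
  -- the rounding bit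
  have s4 := run_put1 (d := dc A) (g := cf (.h 0)) (s := rd (dc A) (cf .x)) (a := bc (rb P z))
    (u := []) (v := []) (m := m) (z := S0 o3) hz3 (by
      simp only [rd, S_cf, hx3, hL, wz_low hP]
      rfl)
  simp only [upd_cf, List.tail_nil] at s4
  set o4 := update o3 (.h 0) ⟨[bc (rb P z)], []⟩ with ho4
  have s5 := run_act' (d := dc A) (f := cf (.h 0)) (o := .rew) (v := ⟨[], [bc (rb P z)]⟩)
    (m := m) (z := S0 o4) (by rw [S0_cf, ho4, Function.update_self]; rfl)
  simp only [upd_cf] at s5
  set o5 := update o4 (.h 0) ⟨[], [bc (rb P z)]⟩ with ho5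
  have rl5 : ∀ k, k ≠ RN.Y → o5 (.r k) = ⟨[], List.replicate (rv P k) .u⟩ := fun k hk => by
    rw [ho5, Function.update_of_ne (by simp), ho4, Function.update_of_ne (by simp), rl3 k hk]
  have hx5 : o5 .x = ⟨T.reverse ++ u, L ++ v⟩ := by
    rw [ho5, Function.update_of_ne (by simp), ho4, Function.update_of_ne (by simp), hx3]
  have s6 := run_lN (d := dc A) (f := cf .x) (r := rf .bs) (by simp) (x := T.reverse) (u := u)
    (v := L ++ v) (R := List.replicate (P.b - P.s) .u) (m := m) (z := S0 o5) (by simp [lT]) hx5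
    (rl5 .bs (by simp))
  simp only [upd_cf, List.length_replicate, List.reverse_reverse] at s6
  rw [← List.append_assoc, ← hWTL] at s6
  have key := Run.seq s1 (Run.seq s2 (Run.seq s3 (Run.seq s4 (Run.seq s5 s6))))
  refine Run.to key (by omega) ?_
  congr 2
  funext k
  rw [ho5, ho4, ho3, ho2, ho1]
  simp only [Function.update_apply]
  split_ifs <;> simp_all

theorem run_em1b {P : CPar} (hP : P.Ok) {m : CallMem A} {z : ℤ} {c : ℕ}
    {o : CF → Zip (Ac A)}
    (hr : ∀ k, k ≠ RN.Y → o (.r k) = ⟨[], List.replicate (rv P k) .u⟩)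
    (ha : o .acc = ⟨[], (bits P.b c).map bc⟩) (h0 : o (.h 0) = ⟨[], [bc (rb P z)]⟩)
    (h1 : o (.h 1) = ⟨((wz P.b (sg P.b z / 2 ^ P.s)).reverse).map bc, []⟩) :
    Run (dc A) (em1b A) ⟨m, S0 o⟩ (10 * P.b + 5)
      ⟨m, S0 (update (update (update o .acc ⟨[], (bits P.b (nc P z c)).map bc⟩)
        (.h 1) ⟨[], []⟩) (.h 0) ⟨[], []⟩)⟩ := by
  have s7 := run_rN (d := dc A) (f := cf .acc) (r := rf .b) (by simp)
    (x := (bits P.b c).map bc) (u := []) (v := []) (R := List.replicate P.b .u) (m := m)
    (z := S0 o) (by simp) (by rw [S0_cf, ha, List.append_nil]) (hr .b (by simp))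
  simp only [upd_cf, List.length_replicate, List.append_nil] at s7
  set o7 := update o .acc ⟨((bits P.b c).map bc).reverse, []⟩ with ho7
  have rl7 : ∀ k, k ≠ RN.Y → o7 (.r k) = ⟨[], List.replicate (rv P k) .u⟩ := fun k hk => by
    rw [ho7, Function.update_of_ne (by simp), hr k hk]
  have s8 := run_addK (d := dc A) (bt := bc) (ub := Sy.unbit) ub_bc (t := cf .acc)
    (A := cf (.h 1)) (cy := cf (.h 0)) (r := rf .b) (by simp) (by simp) (by simp) (by simp)
    (by simp) (by simp) (xs := (bits P.b c).reverse)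
    (ys := (wz P.b (sg P.b z / 2 ^ P.s)).reverse) (c0 := rb P z)
    (R := List.replicate P.b .u) (l := []) (w := []) (u := []) (m := m) (z := S0 o7)
    (by simp) (by simp [length_wz])
    (by rw [S0_cf, ho7, Function.update_self, List.map_reverse, List.append_nil])
    (by rw [S0_cf, ho7, Function.update_of_ne (by simp), h1, List.append_nil])
    (by rw [S0_cf, ho7, Function.update_of_ne (by simp), h0]) (rl7 .b (by simp))
  have eR : ((rip false (rb P z) (bits P.b c).reverse
      (wz P.b (sg P.b z / 2 ^ P.s)).reverse).map (bc (A := A))).reverse ++ [] =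
      (bits P.b (nc P z c)).map bc := by
    rw [← wz_nat, rip_add, wz_sum hP, List.map_reverse, List.reverse_reverse, List.append_nil]
  rw [eR] at s8
  simp only [upd_cf, List.length_replicate] at s8
  refine Run.to (Run.seq s7 s8) (by omega) ?_
  congr 2
  funext k
  rw [ho7]
  simp only [Function.update_apply]
  split_ifs <;> simp_all

theorem run_em1c {P : CPar} (hP : P.Ok) {m : CallMem A} {n : ℕ} (hn : n < 2 ^ P.b)
    {O : List (Ac A)} {o8 : CF → Zip (Ac A)}
    (rl8 : ∀ k, k ≠ RN.Y → o8 (.r k) = ⟨[], List.replicate (rv P k) .u⟩)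
    (ho : o8 .out = ⟨O, []⟩) (ha : o8 .acc = ⟨[], (bits P.b n).map bc⟩)
    (hh8 : o8 (.h 1) = ⟨[], []⟩) :
    Run (dc A) (em1c A) ⟨m, S0 o8⟩ (24 * P.b + 16)
      ⟨m, S0 (update (update o8 .out ⟨(bits P.w n).map bc ++ O, []⟩)
        .acc ⟨[], (bits P.b (n / 2 ^ P.w)).map bc⟩)⟩ := by
  have hb := hP.hb
  -- the new carry
  have s9 := run_fillN (d := dc A) (g := cf (.h 1)) (r := rf .w) (s := fun _ => bc false)
    (by simp) (a := bc false) (u := []) (v := []) (R := List.replicate P.w .u) (m := m)
    (z := S0 o8) hh8 (rl8 .w (by simp)) (fun y y' => rfl)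
  simp only [upd_cf, List.length_replicate, List.append_nil, List.drop_nil] at s9
  set o9 := update o8 (.h 1) ⟨List.replicate P.w (bc false), []⟩ with ho9
  have rl9 : ∀ k, k ≠ RN.Y → o9 (.r k) = ⟨[], List.replicate (rv P k) .u⟩ := fun k hk => by
    rw [ho9, Function.update_of_ne (by simp), rl8 k hk]
  set Q : List (Ac A) := (bits (P.b - P.w) (n / 2 ^ P.w)).map bc with hQ
  set V : List (Ac A) := (bits P.w n).map bc with hV
  have lQ : Q.length = P.b - P.w := by rw [hQ, List.length_map, length_bits]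
  have lV : V.length = P.w := by rw [hV, List.length_map, length_bits]
  have ha9 : o9 .acc = ⟨[], Q ++ V⟩ := by
    rw [ho9, Function.update_of_ne (by simp), ha, bits_split hP n, List.map_append]
  have s10 := run_copyN (d := dc A) (e := dc A) (f := cf .acc) (g := cf (.h 1)) (r := rf .bw)
    (by simp) (by simp) (by simp) (x := Q) (y := V) (u := [])
    (v := List.replicate P.w (bc false)) (R := List.replicate (P.b - P.w) .u) (m := m)
    (z := S0 o9) (by simp [lQ]) ha9 (by rw [S0_cf, ho9, Function.update_self])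
    (rl9 .bw (by simp))
  simp only [upd_cf, List.length_replicate, List.append_nil] at s10
  set o10 := update (update o9 .acc ⟨Q.reverse, V⟩) (.h 1)
    ⟨Q.reverse ++ List.replicate P.w (bc false), []⟩ with ho10
  have rl10 : ∀ k, k ≠ RN.Y → o10 (.r k) = ⟨[], List.replicate (rv P k) .u⟩ := fun k hk => by
    rw [ho10, Function.update_of_ne (by simp), Function.update_of_ne (by simp), rl9 k hk]
  have ha10 : o10 .acc = ⟨Q.reverse, V ++ []⟩ := by
    rw [ho10, Function.update_of_ne (by simp), Function.update_self, List.append_nil]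
  have s11 := run_rN (d := dc A) (f := cf .acc) (r := rf .w) (by simp)
    (x := V) (u := Q.reverse) (v := []) (R := List.replicate P.w .u) (m := m)
    (z := S0 o10) (by simp [lV]) ha10 (rl10 .w (by simp))
  simp only [upd_cf, List.length_replicate] at s11
  set o11 := update o10 .acc ⟨V.reverse ++ Q.reverse, []⟩ with ho11
  have rl11 : ∀ k, k ≠ RN.Y → o11 (.r k) = ⟨[], List.replicate (rv P k) .u⟩ := fun k hk => by
    rw [ho11, Function.update_of_ne (by simp), rl10 k hk]
  have hO11 : o11 .out = ⟨O, []⟩ := by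
    rw [ho11, Function.update_of_ne (by simp), ho10, Function.update_of_ne (by simp),
      Function.update_of_ne (by simp), ho9, Function.update_of_ne (by simp), ho]
  -- the digit
  have s12 := run_popN (d := dc A) (e := dc A) (f := cf .acc) (g := cf .out) (r := rf .w)
    (by simp) (by simp) (by simp) (x := V.reverse) (u := Q.reverse) (v := O)
    (R := List.replicate P.w .u) (m := m) (z := S0 o11) (by simp [lV])
    (by rw [S0_cf, ho11, Function.update_self]) hO11 (rl11 .w (by simp))
  simp only [upd_cf, List.length_replicate, List.reverse_reverse] at s12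
  set o12 := update (update o11 .acc ⟨Q.reverse, []⟩) .out ⟨V ++ O, []⟩ with ho12
  have s13 := run_clr (d := dc A) (cf .acc) m (S0 o12)
  simp only [upd_cf] at s13
  set o13 := update o12 .acc ⟨[], []⟩ with ho13
  have hh13 : o13 (.h 1) = ⟨Q.reverse ++ List.replicate P.w (bc false), []⟩ := by
    rw [ho13, Function.update_of_ne (by simp), ho12, Function.update_of_ne (by simp),
      Function.update_of_ne (by simp), ho11, Function.update_of_ne (by simp), ho10,
      Function.update_self]
  have s14 := run_act' (d := dc A) (f := cf (.h 1)) (o := .rew)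
    (v := ⟨[], (Q.reverse ++ List.replicate P.w (bc false)).reverse⟩)
    (m := m) (z := S0 o13) (by rw [S0_cf, hh13, app_rew, List.append_nil])
  simp only [upd_cf] at s14
  have eN : (Q.reverse ++ List.replicate P.w (bc (A := A) false)).reverse =
      (bits P.b (n / 2 ^ P.w)).map bc := by
    rw [List.reverse_append, List.reverse_reverse, List.reverse_replicate,
      ← bits_carry hP n hn, List.map_append, List.map_replicate]
  rw [eN] at s14
  set N : List (Ac A) := (bits P.b (n / 2 ^ P.w)).map bc with hN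
  have lN' : N.length = P.b := by rw [hN, List.length_map, length_bits]
  set o14 := update o13 (.h 1) ⟨[], N⟩ with ho14
  have rl14 : ∀ k, k ≠ RN.Y → o14 (.r k) = ⟨[], List.replicate (rv P k) .u⟩ := fun k hk => by
    rw [ho14, Function.update_of_ne (by simp), ho13, Function.update_of_ne (by simp), ho12,
      Function.update_of_ne (by simp), Function.update_of_ne (by simp), rl11 k hk]
  have s15 := run_copyN (d := dc A) (e := dc A) (f := cf (.h 1)) (g := cf .acc) (r := rf .b)
    (by simp) (by simp) (by simp) (x := N) (y := []) (u := [])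
    (v := []) (R := List.replicate P.b .u) (m := m)
    (z := S0 o14) (by simp [lN']) (by rw [S0_cf, ho14, Function.update_self, List.append_nil])
    (by rw [S0_cf, ho14, Function.update_of_ne (by simp), ho13, Function.update_self])
    (rl14 .b (by simp))
  simp only [upd_cf, List.length_replicate, List.append_nil] at s15
  set o15 := update (update o14 (.h 1) ⟨N.reverse, []⟩) .acc ⟨N.reverse, []⟩ with ho15
  have s16 := run_act' (d := dc A) (f := cf .acc) (o := .rew) (v := ⟨[], N⟩)
    (m := m) (z := S0 o15) (by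
      rw [S0_cf, ho15, Function.update_self, app_rew, List.append_nil, List.reverse_reverse])
  simp only [upd_cf] at s16
  set o16 := update o15 .acc ⟨[], N⟩ with ho16
  have s17 := run_clr (d := dc A) (cf (.h 1)) m (S0 o16)
  simp only [upd_cf] at s17
  have key := Run.seq s9 (Run.seq s10 (Run.seq s11 (Run.seq s12 (Run.seq s13
    (Run.seq s14 (Run.seq s15 (Run.seq s16 s17)))))))
  refine Run.to key (by omega) ?_
  congr 2
  funext k
  rw [ho16, ho15, ho14, ho13, ho12, ho11, ho10, ho9]
  simp only [Function.update_apply]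
  split_ifs <;> simp_all

theorem run_em1 {P : CPar} (hP : P.Ok) {m : CallMem A} {z : ℤ} {c : ℕ}
    {u v O : List (Ac A)} {o : CF → Zip (Ac A)}
    (hr : ∀ k, k ≠ RN.Y → o (.r k) = ⟨[], List.replicate (rv P k) .u⟩)
    (hx : o .x = ⟨((wz P.b z).map bc).reverse ++ u, v⟩) (ho : o .out = ⟨O, []⟩)
    (ha : o .acc = ⟨[], (bits P.b c).map bc⟩) (h0 : o (.h 0) = ⟨[], []⟩)
    (h1 : o (.h 1) = ⟨[], []⟩) :
    Run (dc A) (em1 A) ⟨m, S0 o⟩ (74 * P.b)
      ⟨m, S0 (update (update (update o .x ⟨u, (wz P.b z).map bc ++ v⟩)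
        .out ⟨(bits P.w (nc P z c)).map bc ++ O, []⟩)
        .acc ⟨[], (bits P.b (nc P z c / 2 ^ P.w)).map bc⟩)⟩ := by
  have hb := hP.hb
  have a1 := run_em1a (A := A) hP (m := m) hr hx h0 h1
  set o1 := update (update (update o .x ⟨u, (wz P.b z).map bc ++ v⟩)
        (.h 1) ⟨((wz P.b (sg P.b z / 2 ^ P.s)).reverse).map bc, []⟩)
        (.h 0) ⟨[], [bc (rb P z)]⟩ with ho1
  have r1 : ∀ k, k ≠ RN.Y → o1 (.r k) = ⟨[], List.replicate (rv P k) .u⟩ := fun k hk => by
    rw [ho1, Function.update_of_ne (by simp), Function.update_of_ne (by simp),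
      Function.update_of_ne (by simp), hr k hk]
  have a2 := run_em1b (A := A) hP (m := m) (z := z) (c := c) r1
    (by rw [ho1, Function.update_of_ne (by simp), Function.update_of_ne (by simp),
      Function.update_of_ne (by simp), ha])
    (by rw [ho1, Function.update_self])
    (by rw [ho1, Function.update_of_ne (by simp), Function.update_self])
  set o2 := update (update (update o1 .acc ⟨[], (bits P.b (nc P z c)).map bc⟩)
        (.h 1) ⟨[], []⟩) (.h 0) ⟨[], []⟩ with ho2
  have r2 : ∀ k, k ≠ RN.Y → o2 (.r k) = ⟨[], List.replicate (rv P k) .u⟩ := fun k hk => by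
    rw [ho2, Function.update_of_ne (by simp), Function.update_of_ne (by simp),
      Function.update_of_ne (by simp), r1 k hk]
  have a3 := run_em1c (A := A) hP (m := m) (nc_lt P z c) (O := O) r2
    (by rw [ho2, Function.update_of_ne (by simp), Function.update_of_ne (by simp),
      Function.update_of_ne (by simp), ho1, Function.update_of_ne (by simp),
      Function.update_of_ne (by simp), Function.update_of_ne (by simp), ho])
    (by rw [ho2, Function.update_of_ne (by simp), Function.update_of_ne (by simp),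
      Function.update_self])
    (by rw [ho2, Function.update_of_ne (by simp), Function.update_self])
  refine Run.to (Run.seq a1 (Run.seq a2 a3)) (by omega) ?_
  congr 2
  funext k
  rw [ho2, ho1]
  simp only [Function.update_apply]
  split_ifs <;> simp_all

end

end Vale.Agent.P338.R3.H784
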