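import Vale.Agent.P338.R3.H784.EmitC
import Vale.Agent.P338.R3.H525.Free
import Vale.Agent.P338.R3.H884.Load
import Vale.Agent.P338.R3.H968.Mulp3

/-!
P338-D: steps of the programs of the acts; the product of complex cells and the release of a cell.
-/

namespace Vale.Agent.P338.R3.H784

open Vale.Agent.P338.R2.H898 hiding val
open Prog
open Vale.Agent.P338.R2.H968
open Vale.Agent.P338.R2.H784
open Vale.Agent.P338.R3.H968
open Vale.Agent.P338.R3.H898 (cZero cpRe cpIm)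
open Vale.Agent.P338.R3.H525

/-- The data with a new array and new stacks. -/
def Q (D : DS) (X : Zip Cell) (a b : List Cell) : DS := { D with X := X, A := a, B := b }

/-- The unit of cost. -/
def U (P : CPar) : ℕ := 40 * (P.ell + 1)

section steps

variable {A : MTM} [DecidableEq A.Tape] {P : CPar} (D : DS) (c e : Cell) (l r a b : List Cell)

theorem q_R : Run (dc A) (pR A) (stc P (Q D ⟨l, c :: r⟩ a b)) (U P)
    (stc P (Q D ⟨c :: l, r⟩ a b)) :=
  (run_pR (A := A) (P := P) (D := Q D ⟨l, c :: r⟩ a b) (c := c) (l := l) (r := r) rfl).mono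
    (by unfold U; omega)

theorem q_L : Run (dc A) (pL A) (stc P (Q D ⟨c :: l, r⟩ a b)) (U P)
    (stc P (Q D ⟨l, c :: r⟩ a b)) :=
  (run_pL (A := A) (P := P) (D := Q D ⟨c :: l, r⟩ a b) (c := c) (l := l) (r := r) rfl).mono
    (by unfold U; omega)

theorem q_pushA : Run (dc A) (pPush A false) (stc P (Q D ⟨l, c :: r⟩ a b)) (U P)
    (stc P (Q D ⟨l, c :: r⟩ (c :: a) b)) :=
  (run_pPush (A := A) (P := P) false (D := Q D ⟨l, c :: r⟩ a b) (c := c) (l := l) (r := r)
    rfl).mono (by unfold U; omega)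

theorem q_pushB : Run (dc A) (pPush A true) (stc P (Q D ⟨l, c :: r⟩ a b)) (U P)
    (stc P (Q D ⟨l, c :: r⟩ a (c :: b))) :=
  (run_pPush (A := A) (P := P) true (D := Q D ⟨l, c :: r⟩ a b) (c := c) (l := l) (r := r)
    rfl).mono (by unfold U; omega)

theorem q_setA : Run (dc A) (pSet A false) (stc P (Q D ⟨l, c :: r⟩ (e :: a) b)) (U P)
    (stc P (Q D ⟨l, e :: r⟩ a b)) :=
  (run_pSet (A := A) (P := P) false (D := Q D ⟨l, c :: r⟩ (e :: a) b) (c := c) (l := l) (r := r)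
    (y := e) (S := a) rfl rfl).mono (by unfold U; omega)

theorem q_setB : Run (dc A) (pSet A true) (stc P (Q D ⟨l, c :: r⟩ a (e :: b))) (U P)
    (stc P (Q D ⟨l, e :: r⟩ a b)) :=
  (run_pSet (A := A) (P := P) true (D := Q D ⟨l, c :: r⟩ a (e :: b)) (c := c) (l := l) (r := r)
    (y := e) (S := b) rfl rfl).mono (by unfold U; omega)

theorem q_zero : Run (dc A) (pZeroC A) (stc P (Q D ⟨l, c :: r⟩ a b)) (U P)
    (stc P (Q D ⟨l, cZero :: r⟩ a b)) :=
  (run_pZeroC (A := A) (P := P) (D := Q D ⟨l, c :: r⟩ a b) (c := c) (l := l) (r := r)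
    rfl).mono (by unfold U; omega)

theorem q_lo : Run (dc A) (pLo A) (stc P (Q D ⟨l, c :: r⟩ a b)) (U P)
    (stc P (Q D ⟨l, cLo P c :: r⟩ a b)) :=
  (run_pLo (A := A) (P := P) (D := Q D ⟨l, c :: r⟩ a b) (c := c) (l := l) (r := r)
    rfl).mono (by unfold U; omega)

theorem q_hi : Run (dc A) (pHi A) (stc P (Q D ⟨l, c :: r⟩ a b)) (U P)
    (stc P (Q D ⟨l, cHi P c :: r⟩ a b)) :=
  (run_pHi (A := A) (P := P) (D := Q D ⟨l, c :: r⟩ a b) (c := c) (l := l) (r := r)
    rfl).mono (by unfold U; omega)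

theorem add_cost (hP : P.Ok) : P.ell * 3 + P.nw * (P.b * 7 + 6) + 4 ≤ U P := by
  have h0 := nw_le_ell hP
  have h1 : P.nw * (P.b * 7 + 6) = 7 * P.ell + 6 * P.nw := by
    simp only [CPar.ell]
    ring
  unfold U
  omega

theorem q_addB (hP : P.Ok) :
    Run (dc A) (pAdd A false true) (stc P (Q D ⟨l, c :: r⟩ a (e :: b))) (U P)
      (stc P (Q D ⟨l, cAdd c e :: r⟩ a b)) :=
  (run_pAdd (A := A) (P := P) false true (D := Q D ⟨l, c :: r⟩ a (e :: b)) (c := c) (l := l)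
    (r := r) (y := e) (S := b) rfl rfl).mono (add_cost hP)

theorem q_subB (hP : P.Ok) :
    Run (dc A) (pAdd A true true) (stc P (Q D ⟨l, c :: r⟩ a (e :: b))) (U P)
      (stc P (Q D ⟨l, cSub c e :: r⟩ a b)) :=
  (run_pAdd (A := A) (P := P) true true (D := Q D ⟨l, c :: r⟩ a (e :: b)) (c := c) (l := l)
    (r := r) (y := e) (S := b) rfl rfl).mono (add_cost hP)

theorem q_subA (hP : P.Ok) :
    Run (dc A) (pAdd A true false) (stc P (Q D ⟨l, c :: r⟩ (e :: a) b)) (U P)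
      (stc P (Q D ⟨l, cSub c e :: r⟩ a b)) :=
  (run_pAdd (A := A) (P := P) true false (D := Q D ⟨l, c :: r⟩ (e :: a) b) (c := c) (l := l)
    (r := r) (y := e) (S := a) rfl rfl).mono (add_cost hP)

theorem q_mulp (hA : Multiplies A) (hP : P.Ok) :
    Run (dc A) (mulp A) (stc P (Q D ⟨l, c :: r⟩ a (e :: b))) (tmp A P)
      (stc P (Q D ⟨l, cMulp P c e :: r⟩ a b)) :=
  run_mulp (A := A) hA hP (Q D ⟨l, c :: r⟩ a (e :: b)) c e r b rfl rfl

end steps

/-! ### The product of complex cells -/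

/-- First part. -/
noncomputable def prod1 (A : MTM) [DecidableEq A.Tape] : PC A :=
  .seq (pPush A false) (.seq (pR A) (.seq (pPush A false) (.seq (pR A) (.seq (pPush A true)
  (.seq (pPush A true) (.seq (pL A) (.seq (mulp A) (.seq (pL A) (.seq (mulp A) (.seq (pR A)
  (.seq (pR A) (pR A))))))))))))

/-- Second part. -/
noncomputable def prod2 (A : MTM) [DecidableEq A.Tape] : PC A :=
  .seq (pPush A true) (.seq (pPush A true) (.seq (pSet A false) (.seq (mulp A) (.seq (pL A)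
  (.seq (pSet A false) (.seq (mulp A) (.seq (pPush A true) (.seq (pZeroC A) (.seq (pL A)
  (pAdd A false true))))))))))

/-- Third part. -/
def prod3 (A : MTM) [DecidableEq A.Tape] : PC A :=
  .seq (pR A) (.seq (pR A) (.seq (pPush A true) (.seq (pZeroC A) (.seq (pL A) (.seq (pL A)
  (.seq (pL A) (.seq (pAdd A true true) (.seq (pR A) (.seq (pR A) (.seq (pR A) (pR A)))))))))))

/-- The product of the complex cells in the current four cells. -/
noncomputable def prodP (A : MTM) [DecidableEq A.Tape] : PC A :=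
  .seq (prod1 A) (.seq (prod2 A) (prod3 A))

section

variable {A : MTM} [DecidableEq A.Tape] {P : CPar}

theorem run_prod1 (hA : Multiplies A) (hP : P.Ok) (D : DS) (x y x' y' : Cell)
    (l r a b : List Cell) :
    Run (dc A) (prod1 A) (stc P (Q D ⟨l, x :: y :: x' :: y' :: r⟩ a b)) (2 * tmp A P + 11 * U P)
      (stc P (Q D ⟨x' :: cMulp P y x' :: cMulp P x x' :: l, y' :: r⟩ (y :: x :: a) b)) := by
  refine Run.to (Run.seq (q_pushA D x l _ a b) (Run.seq (q_R D x l _ _ b)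
    (Run.seq (q_pushA D y _ _ _ b) (Run.seq (q_R D y _ _ _ b) (Run.seq (q_pushB D x' _ _ _ b)
    (Run.seq (q_pushB D x' _ _ _ _) (Run.seq (q_L D y _ _ _ _)
    (Run.seq (q_mulp D y x' _ _ _ _ hA hP) (Run.seq (q_L D x _ _ _ _)
    (Run.seq (q_mulp D x x' _ _ _ _ hA hP) (Run.seq (q_R D _ _ _ _ _)
    (Run.seq (q_R D _ _ _ _ _) (q_R D _ _ _ _ _))))))))))))) ?_ rfl
  omega

theorem run_prod2 (hA : Multiplies A) (hP : P.Ok) (D : DS) (x y x' y' p q : Cell)
    (l r a b : List Cell) :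
    Run (dc A) (prod2 A) (stc P (Q D ⟨x' :: q :: p :: l, y' :: r⟩ (y :: x :: a) b))
      (2 * tmp A P + 9 * U P)
      (stc P (Q D ⟨p :: l, cAdd q (cMulp P x y') :: cZero :: cMulp P y y' :: r⟩ a b)) := by
  refine Run.to (Run.seq (q_pushB D y' _ _ _ b) (Run.seq (q_pushB D y' _ _ _ _)
    (Run.seq (q_setA D y' y _ _ _ _) (Run.seq (q_mulp D y y' _ _ _ _ hA hP)
    (Run.seq (q_L D x' _ _ _ _) (Run.seq (q_setA D x' x _ _ _ _)
    (Run.seq (q_mulp D x y' _ _ _ _ hA hP) (Run.seq (q_pushB D _ _ _ _ _)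
    (Run.seq (q_zero D _ _ _ _ _) (Run.seq (q_L D q _ _ _ _)
    (q_addB D q _ _ _ _ _ hP))))))))))) ?_ rfl
  omega

theorem run_prod3 (hP : P.Ok) (D : DS) (p q z t : Cell)
    (l r a b : List Cell) :
    Run (dc A) (prod3 A) (stc P (Q D ⟨p :: l, q :: z :: t :: r⟩ a b))
      (12 * U P)
      (stc P (Q D ⟨cZero :: z :: q :: cSub p t :: l, r⟩ a b)) := by
  refine Run.to (Run.seq (q_R D q _ _ _ _) (Run.seq (q_R D z _ _ _ _)
    (Run.seq (q_pushB D t _ _ _ b) (Run.seq (q_zero D t _ _ _ _) (Run.seq (q_L D z _ _ _ _)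
    (Run.seq (q_L D q _ _ _ _) (Run.seq (q_L D p _ _ _ _) (Run.seq (q_subB D p t _ _ _ _ hP)
    (Run.seq (q_R D _ _ _ _ _) (Run.seq (q_R D _ _ _ _ _) (Run.seq (q_R D _ _ _ _ _)
    (q_R D _ _ _ _ _)))))))))))) ?_ rfl
  omega

theorem run_prodP (hA : Multiplies A) (hP : P.Ok) (D : DS) (x y x' y' : Cell) (l r : List Cell)
    (h : D.X = ⟨l, x :: y :: x' :: y' :: r⟩) :
    Run (dc A) (prodP A) (stc P D) (4 * tmp A P + 32 * U P)
      (stc P { D with X := ⟨cZero :: cZero :: cpIm P x y x' y' :: cpRe P x y x' y' :: l, r⟩ }) := by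
  have h1 := run_prod1 (A := A) hA hP D x y x' y' l r D.A D.B
  have h2 := run_prod2 (A := A) hA hP D x y x' y' (cMulp P x x') (cMulp P y x') l r D.A D.B
  have h3 := run_prod3 (A := A) hP D (cMulp P x x') (cAdd (cMulp P y x') (cMulp P x y')) cZero
    (cMulp P y y') l r D.A D.B
  have e0 : Q D ⟨l, x :: y :: x' :: y' :: r⟩ D.A D.B = D := by
    rw [← h]
    rfl
  rw [e0] at h1
  have e1 : cAdd (cMulp P y x') (cMulp P x y') = cpIm P x y x' y' := by
    funext j
    simp only [cAdd, cpIm]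
    ring
  rw [e1] at h3
  refine Run.to (Run.seq h1 (Run.seq h2 (by rw [e1]; exact h3))) (by omega) rfl

/-! ### Release of a cell -/

/-- The program of the opcode 14. -/
def unlP (A : MTM) [DecidableEq A.Tape] : PC A :=
  .seq (pPush A false) (.seq (pLo A) (.seq (pAdd A false true) (.seq (emitP A)
  (.seq (pSet A false) (.seq (pPush A false) (.seq (pHi A) (.seq (pPush A true)
  (.seq (pSet A false) (pR A)))))))))

theorem run_unlP (hP : P.Ok) (D : DS) (c y : Cell) (l r b : List Cell)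
    (h : D.X = ⟨l, c :: r⟩) (hB : D.B = y :: b) :
    Run (dc A) (unlP A) (stc P D) (11 * U P)
      (stc P { D with
        X := ⟨c :: l, r⟩
        B := cHi P c :: b
        out := D.out ++ (emit P (cAdd (cLo P c) y) P.Y 0 D.acc).1
        acc := (emit P (cAdd (cLo P c) y) P.Y 0 D.acc).2 }) := by
  obtain ⟨D1, hD1⟩ : ∃ D1 : DS, D1 = { D with
      out := D.out ++ (emit P (cAdd (cLo P c) y) P.Y 0 D.acc).1
      acc := (emit P (cAdd (cLo P c) y) P.Y 0 D.acc).2 } := ⟨_, rfl⟩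
  have e0 : Q D ⟨l, c :: r⟩ D.A (y :: b) = D := by
    rw [← h, ← hB]
    rfl
  have h1 := run_emit (A := A) hP (D := Q D ⟨l, cAdd (cLo P c) y :: r⟩ (c :: D.A) b)
    (e := cAdd (cLo P c) y) (r := r) rfl
  have e1 : ({ Q D ⟨l, cAdd (cLo P c) y :: r⟩ (c :: D.A) b with
      out := (Q D ⟨l, cAdd (cLo P c) y :: r⟩ (c :: D.A) b).out ++
        (emit P (cAdd (cLo P c) y) P.Y 0 (Q D ⟨l, cAdd (cLo P c) y :: r⟩ (c :: D.A) b).acc).1
      acc := (emit P (cAdd (cLo P c) y) P.Y 0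
        (Q D ⟨l, cAdd (cLo P c) y :: r⟩ (c :: D.A) b).acc).2 } : DS) =
      Q D1 ⟨l, cAdd (cLo P c) y :: r⟩ (c :: D.A) b := by
    rw [hD1]
    rfl
  rw [e1] at h1
  have g1 := q_pushA (A := A) (P := P) D c l r D.A (y :: b)
  rw [e0] at g1
  refine Run.to (Run.seq g1 (Run.seq (q_lo D c l r _ _) (Run.seq (q_addB D _ y _ _ _ _ hP)
    (Run.seq h1 (Run.seq (q_setA D1 _ c _ _ _ _) (Run.seq (q_pushA D1 c _ _ _ _)
    (Run.seq (q_hi D1 c _ _ _ _) (Run.seq (q_pushB D1 _ _ _ _ _)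
    (Run.seq (q_setA D1 _ c _ _ _ _) (q_R D1 c _ _ _ _)))))))))) ?_ ?_
  · unfold U
    omega
  · rw [hD1]
    rfl

end

end Vale.Agent.P338.R3.H784
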